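import Vale.Agent.P011Z.MainF.Res

/-!
Restriction of scalars from a number field: the points over a field in which the number field
splits completely.
-/

open Matrix Module

namespace Vale.Agent.P011Z

namespace MF

variable {F m L : Type} [Field F] [NumberField F] [Fintype m] [DecidableEq m] [Fintype L]
  [DecidableEq L] (β : Basis L ℚ F) {Ω : Type} [Field Ω] [CharZero Ω]

theorem exists_inv [Fintype (F →+* Ω)] [DecidableEq (F →+* Ω)]
    (hs : Nat.card (F →+* Ω) = finrank ℚ F) : ∃ N : Matrix L (F →+* Ω) Ω,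
      (Matrix.of fun (τ : F →+* Ω) l => τ (β l)) * N = 1 ∧
        N * (Matrix.of fun (τ : F →+* Ω) l => τ (β l)) = 1 := by
  have e : (F →+* Ω) ≃ L := Fintype.equivOfCardEq (by
    rw [← Nat.card_eq_fintype_card, hs, finrank_eq_card_basis β])
  let M : Matrix (F →+* Ω) L Ω := Matrix.of fun τ l => τ (β l)
  have h1 : IsUnit (M.submatrix id e) := by
    refine vecMul_injective_iff_isUnit.1 ((injective_iff_map_eq_zero
      (M.submatrix id e).vecMulLinear).2 fun c hc => ?_)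
    have h2 : LinearIndependent Ω fun τ : F →+* Ω => ((τ : F →* Ω) : F → Ω) :=
      (linearIndependent_monoidHom F Ω).comp (fun τ : F →+* Ω => (τ : F →* Ω))
        RingHom.coe_monoidHom_injective
    refine funext (Fintype.linearIndependent_iff.1 h2 c (funext fun x => ?_))
    have h3 : ∀ l, ∑ τ : F →+* Ω, c τ * τ (β l) = 0 := fun l => by
      simpa [vecMul, dotProduct, M] using congrFun hc (e.symm l)
    simp only [Finset.sum_apply, Pi.smul_apply, smul_eq_mul, MonoidHom.coe_coe, Pi.zero_apply,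
      ← sum_repr β _ x, Finset.mul_sum]
    rw [Finset.sum_comm]
    refine Finset.sum_eq_zero fun l _ => ?_
    simp only [← mul_assoc, ← Finset.sum_mul, h3, zero_mul]
  obtain ⟨u, hu⟩ := h1
  have h2 : M = (u : Matrix _ _ Ω).submatrix id e.symm := by
    rw [hu]
    simp
  refine ⟨((u⁻¹ : (Matrix _ _ Ω)ˣ) : Matrix _ _ Ω).submatrix e.symm id, ?_, ?_⟩
  · rw [show (Matrix.of fun (τ : F →+* Ω) l => τ (β l)) = _ from h2, submatrix_mul_equiv,
      Units.mul_inv, submatrix_id_id]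
  · rw [show (Matrix.of fun (τ : F →+* Ω) l => τ (β l)) = _ from h2]
    refine (submatrix_mul_equiv _ _ _ (Equiv.refl _) _).trans ?_
    rw [Units.inv_mul, submatrix_one_equiv]

/-- The block decomposition over a field in which the number field splits. -/
structure Blk (m : Type) [Fintype m] [DecidableEq m] (Ω : Type) [Field Ω] where
  blk : ((F →+* Ω) → Matrix m m Ω) →ₐ[Ω] Matrix (m × L) (m × L) Ω
  jm_blk : ∀ g τ v, jm β τ (blk g *ᵥ v) = g τ *ᵥ jm β τ v
  inj₀ : ∀ d : L → Ω, (∀ τ : F →+* Ω, ∑ l, τ (β l) * d l = 0) → d = 0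
  surj : ∀ y : (F →+* Ω) → m → Ω, ∃ v, ∀ τ, jm β τ v = y τ

omit [DecidableEq L] [CharZero Ω] [Fintype m] [DecidableEq m] in
theorem inj_of (h : ∀ d : L → Ω, (∀ τ : F →+* Ω, ∑ l, τ (β l) * d l = 0) → d = 0)
    {v w : m × L → Ω} (hv : ∀ τ : F →+* Ω, jm β τ v = jm β τ w) : v = w := by
  refine sub_eq_zero.1 (funext fun i => congrFun (h (fun l => (v - w) (i.1, l)) fun τ => ?_) i.2)
  rw [← jm_apply, map_sub, hv, sub_self]
  rfl

theorem exists_blk (hs : Nat.card (F →+* Ω) = finrank ℚ F) : Nonempty (Blk β m Ω) := by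
  classical
  have : Finite (F →+* Ω) := Nat.finite_of_card_ne_zero (by rw [hs]; exact finrank_pos.ne')
  have := Fintype.ofFinite (F →+* Ω)
  obtain ⟨N, h1, h2⟩ := exists_inv β hs
  have h3 : ∀ d : L → Ω, (∀ τ : F →+* Ω, ∑ l, τ (β l) * d l = 0) → d = 0 := by
    intro d hd
    have h4 : (Matrix.of fun (τ : F →+* Ω) l => τ (β l)) *ᵥ d = 0 := funext hd
    rw [← one_mulVec d, ← h2, ← mulVec_mulVec, h4, mulVec_zero]
  have h4 : ∀ (y : (F →+* Ω) → m → Ω) (τ : F →+* Ω),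
      jm β τ (fun i => ∑ τ', N i.2 τ' * y τ' i.1) = y τ := by
    intro y τ
    ext i
    have h5 := congrFun (congrArg (· *ᵥ fun τ => y τ i) h1) τ
    simp only [one_mulVec, ← mulVec_mulVec] at h5
    exact h5
  let f : ((F →+* Ω) → Matrix m m Ω) → Matrix (m × L) (m × L) Ω :=
    fun g i j => ∑ τ, N i.2 τ * (g τ i.1 j.1 * τ (β j.2))
  have h5 : ∀ g τ v, jm β τ (f g *ᵥ v) = g τ *ᵥ jm β τ v := by
    intro g τ v
    rw [← h4 (fun τ => g τ *ᵥ jm β τ v) τ]
    refine congrArg _ (funext fun i => ?_)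
    simp only [f, mulVec, dotProduct, jm_apply, Finset.sum_mul, Finset.mul_sum]
    rw [Finset.sum_comm]
    refine Finset.sum_congr rfl fun τ _ => ?_
    rw [Fintype.sum_prod_type]
    simp only [mul_assoc]
  have h6 : ∀ {X Y : Matrix (m × L) (m × L) Ω},
      (∀ (τ : F →+* Ω) v, jm β τ (X *ᵥ v) = jm β τ (Y *ᵥ v)) → X = Y := fun h =>
    Matrix.ext_of_mulVec_single fun i => inj_of β h3 fun τ => h τ _
  let f' : ((F →+* Ω) → Matrix m m Ω) →ₗ[Ω] Matrix (m × L) (m × L) Ω :=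
    { toFun := f
      map_add' := fun g h => h6 fun τ v => by
        rw [h5, add_mulVec, map_add, h5, h5, Pi.add_apply, add_mulVec]
      map_smul' := fun c g => h6 fun τ v => by
        rw [h5, smul_mulVec, map_smul, h5, Pi.smul_apply, smul_mulVec, RingHom.id_apply] }
  exact ⟨⟨AlgHom.ofLinearMap f'
    (h6 fun τ v => (h5 1 τ v).trans (by rw [Pi.one_apply, one_mulVec, one_mulVec]))
    fun g h => h6 fun τ v => (h5 (g * h) τ v).trans (by
      rw [← mulVec_mulVec, Pi.mul_apply, ← mulVec_mulVec, ← h5, ← h5]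
      rfl), h5, h3, fun y => ⟨_, h4 y⟩⟩⟩

namespace Blk

variable {β} (b : Blk β m Ω)

omit [CharZero Ω] in
include b in
theorem ext_mat {X Y : Matrix (m × L) (m × L) Ω}
    (h : ∀ (τ : F →+* Ω) v, jm β τ (X *ᵥ v) = jm β τ (Y *ᵥ v)) : X = Y :=
  Matrix.ext_of_mulVec_single fun _ => inj_of β b.inj₀ fun τ => h τ _

omit [CharZero Ω] in
theorem blk_inj : Function.Injective b.blk := by
  intro g h e
  refine funext fun τ => Matrix.ext_of_mulVec_single fun i => ?_
  obtain ⟨v, hv⟩ := b.surj fun _ => Pi.single i 1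
  rw [← hv τ, ← b.jm_blk, e, b.jm_blk]

theorem blk_res (X : Matrix m m F) :
    b.blk (fun τ => X.map τ) = (res β X).map (Rat.castHom Ω) :=
  b.ext_mat fun τ v => by rw [b.jm_blk, jm_res]

variable {S : SysF F m}

theorem blk_mem_mon {G : Type} {ρ : (F →+* Ω) → G → Matrix m m Ω} (h : S.Pres ρ) (g : G) :
    b.blk (fun τ => ρ τ g) ∈ (sys β S).mon Ω := by
  rw [Sys.mem_mon, forall_T]
  intro t ht l x
  refine sub_eq_zero.1 (congrFun (b.inj₀ (fun l => ev (crd β t l) Ω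
    (fun r => b.blk (fun τ => ρ τ g) *ᵥ x r) - ev (crd β t l) Ω x) fun τ => ?_) l)
  simp only [mul_sub, Finset.sum_sub_distrib, sum_ev, b.jm_blk]
  rw [h t ht, sub_self]

theorem of_mem_lie {Y : Matrix (m × L) (m × L) Ω} (hY : Y ∈ (sys β S).lie Ω) :
    ∃ y, b.blk y = Y ∧ ∀ τ, y τ ∈ S.lieE τ := by
  rw [Sys.lie_eq_span (Rat.castHom Ω)] at hY
  induction hY using Submodule.span_induction with
  | mem Y hY =>
    obtain ⟨Y, hY, rfl⟩ := hY
    obtain ⟨X, hX, rfl⟩ := exists_res_lie β S hY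
    exact ⟨_, b.blk_res X, fun τ => Submodule.subset_span ⟨X, hX, rfl⟩⟩
  | zero => exact ⟨0, map_zero _, fun τ => zero_mem _⟩
  | add Y Z _ _ h1 h2 =>
    obtain ⟨y, rfl, h1⟩ := h1
    obtain ⟨z, rfl, h2⟩ := h2
    exact ⟨y + z, map_add _ _ _, fun τ => add_mem (h1 τ) (h2 τ)⟩
  | smul c Y _ h1 =>
    obtain ⟨y, rfl, h1⟩ := h1
    exact ⟨c • y, map_smul _ _ _, fun τ => Submodule.smul_mem _ c (h1 τ)⟩

theorem of_mem_lieE {τ : F →+* Ω} {Z : Matrix m m Ω} (hZ : Z ∈ S.lieE τ) :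
    ∃ y, b.blk y ∈ (sys β S).lie Ω ∧ y τ = Z := by
  induction hZ using Submodule.span_induction with
  | mem Z hZ =>
    obtain ⟨X, hX, rfl⟩ := hZ
    refine ⟨fun τ => X.map τ, ?_, rfl⟩
    rw [b.blk_res]
    exact Sys.map_mem_lie _ ((res_mem_lie β S).2 hX)
  | zero => exact ⟨0, by rw [map_zero]; exact zero_mem _, rfl⟩
  | add Y Z _ _ h1 h2 =>
    obtain ⟨y, h1, rfl⟩ := h1
    obtain ⟨z, h2, rfl⟩ := h2
    exact ⟨y + z, by rw [map_add]; exact add_mem h1 h2, rfl⟩
  | smul c Y _ h1 =>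
    obtain ⟨y, h1, rfl⟩ := h1
    exact ⟨c • y, by rw [map_smul]; exact Submodule.smul_mem _ c h1, rfl⟩

end Blk

end MF

end Vale.Agent.P011Z
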