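import Vale.Agent.P011Z.SysF

/-!
A diagonalisable element which normalises a prime Lie algebra of matrices.
-/

open Matrix Module Polynomial

namespace Vale.Agent.P011Z

namespace MF

variable {Ω m : Type} [Field Ω] [Fintype m] [DecidableEq m]

/-- Every vector is a sum of eigenvectors with nonzero eigenvalues. -/
def Dg (s : Matrix m m Ω) : Prop :=
  ∃ (K : Finset ℤ) (μ : ℤ → Ω), (∀ k, μ k ≠ 0) ∧ ∀ v : m → Ω, ∃ u : ℤ → m → Ω,
    v = ∑ k ∈ K, u k ∧ ∀ k, s *ᵥ u k = μ k • u k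

omit [DecidableEq m] in
theorem Dg.eig {s : Matrix m m Ω} (h : Dg s) (c : Ω) (v : m → Ω)
    (hv : s *ᵥ (s *ᵥ v - c • v) = c • (s *ᵥ v - c • v)) : s *ᵥ v - c • v = 0 := by
  classical
  obtain ⟨K, μ, -, h⟩ := h
  let f : Module.End Ω (m → Ω) := s.mulVecLin
  let Q : Polynomial Ω := ∏ a ∈ (K.image μ).erase c, (X - C a)
  have h1 : aeval f Q (s *ᵥ v - c • v) = Q.eval c • (s *ᵥ v - c • v) :=
    Module.End.aeval_apply_of_mem_apply_eq_smul hv
  have h2 : Q.eval c ≠ 0 := by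
    rw [eval_prod]
    refine Finset.prod_ne_zero_iff.2 fun a ha => ?_
    rw [eval_sub, eval_X, eval_C]
    exact sub_ne_zero.2 (Finset.ne_of_mem_erase ha).symm
  have h3 : aeval f Q (s *ᵥ v - c • v) = 0 := by
    obtain ⟨u, rfl, hu⟩ := h v
    rw [mulVec_sum, Finset.smul_sum, ← Finset.sum_sub_distrib, map_sum]
    refine Finset.sum_eq_zero fun k hk => ?_
    rw [hu k, ← sub_smul, map_smul, Module.End.aeval_apply_of_mem_apply_eq_smul (hu k), smul_smul]
    by_cases hc : μ k = c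
    · rw [hc, sub_self, zero_mul, zero_smul]
    · rw [eval_prod, Finset.prod_eq_zero (Finset.mem_erase.2 ⟨hc, Finset.mem_image_of_mem μ hk⟩)
        (by rw [eval_sub, eval_X, eval_C, sub_self]), mul_zero, zero_smul]
  rw [h3] at h1
  exact (smul_eq_zero.1 h1.symm).resolve_left h2

theorem Dg.ad {s s' : Matrix m m Ω} (h : Dg s) (h2 : s' * s = 1) (X : Matrix m m Ω)
    (hX : s * (s * X * s' - X) = (s * X * s' - X) * s) : s * X * s' - X = 0 := by
  obtain ⟨K, μ, h0, h3⟩ := id h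
  refine Matrix.ext_of_mulVec_single fun i => ?_
  obtain ⟨u, h4, h5⟩ := h3 (Pi.single i 1)
  rw [h4, zero_mulVec, mulVec_sum]
  refine Finset.sum_eq_zero fun k _ => ?_
  have h6 : μ k • (s * X * s' - X) *ᵥ u k = s *ᵥ (X *ᵥ u k) - μ k • X *ᵥ u k := by
    rw [← mulVec_smul, ← h5, mulVec_mulVec, sub_mul, Matrix.mul_assoc, h2, Matrix.mul_one,
      sub_mulVec, mulVec_mulVec, ← mulVec_mulVec (u k) X s, h5, mulVec_smul]
  have h7 := h.eig (μ k) (X *ᵥ u k) (by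
    rw [← h6, mulVec_smul, mulVec_mulVec, hX, ← mulVec_mulVec, h5, mulVec_smul])
  rw [← h6] at h7
  exact (smul_eq_zero.1 h7).resolve_left (h0 k)

/-- The elements of `L` which commute with all elements of `D`. -/
def cen (L : Submodule Ω (Matrix m m Ω)) (D : Set (Matrix m m Ω)) :
    Submodule Ω (Matrix m m Ω) where
  carrier := {Y | Y ∈ L ∧ ∀ X ∈ D, Y * X = X * Y}
  zero_mem' := ⟨zero_mem _, fun X _ => by simp⟩
  add_mem' := fun {Y Z} hY hZ => ⟨add_mem hY.1 hZ.1, fun X hX => by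
    rw [add_mul, mul_add, hY.2 X hX, hZ.2 X hX]⟩
  smul_mem' := fun c Y hY => ⟨Submodule.smul_mem _ c hY.1, fun X hX => by
    rw [smul_mul_assoc, mul_smul_comm, hY.2 X hX]⟩

theorem decomp {s s' : Matrix m m Ω} (h : Dg s) (h2 : s' * s = 1)
    {L : Submodule Ω (Matrix m m Ω)} (hc : ∀ X ∈ L, s * X * s' ∈ L) {X : Matrix m m Ω}
    (hX : X ∈ L) : ∃ X₀ ∈ L, ∃ Z ∈ L, s * X₀ * s' = X₀ ∧ X = X₀ + (s * Z * s' - Z) := by
  let T₀ : Matrix m m Ω →ₗ[Ω] Matrix m m Ω :=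
    { toFun := fun X => s * X * s' - X
      map_add' := fun X Y => by rw [mul_add, add_mul]; abel
      map_smul' := fun c X => by simp [smul_sub] }
  let T : L →ₗ[Ω] L := T₀.restrict fun X hX => sub_mem (hc X hX) hX
  have hT : ∀ X : L, ((T X : L) : Matrix m m Ω) = s * X * s' - X := fun _ => rfl
  have h3 : Disjoint (LinearMap.ker T) (LinearMap.range T) := by
    rw [Submodule.disjoint_def]
    rintro _ hY ⟨Z, rfl⟩
    have h4 := congrArg Subtype.val (LinearMap.mem_ker.1 hY)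
    rw [hT, hT] at h4
    refine Subtype.ext ((hT Z).trans (h.ad h2 _ ?_))
    have h5 := congrArg (· * s) (sub_eq_zero.1 h4)
    simpa only [Matrix.mul_assoc _ s' s, h2, Matrix.mul_one] using h5
  have h4 := Submodule.eq_top_of_disjoint _ _
    (by rw [add_comm, LinearMap.finrank_range_add_finrank_ker]) h3
  obtain ⟨X₀, h5, _, ⟨Z, rfl⟩, h6⟩ := Submodule.mem_sup.1 (h4.ge (Submodule.mem_top (x := ⟨X, hX⟩)))
  refine ⟨X₀, X₀.2, Z, Z.2, ?_, (congrArg Subtype.val h6).symm⟩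
  exact sub_eq_zero.1 ((hT X₀).symm.trans (congrArg Subtype.val (LinearMap.mem_ker.1 h5)))

theorem eq_zero_of_prime {s s' : Matrix m m Ω} (h : Dg s) (h2 : s' * s = 1)
    {L : Submodule Ω (Matrix m m Ω)} (hb : ∀ X ∈ L, ∀ Y ∈ L, X * Y - Y * X ∈ L)
    (hc : ∀ X ∈ L, s * X * s' ∈ L)
    (hP : ∀ I J : Submodule Ω (Matrix m m Ω), I ≤ L → J ≤ L →
      (∀ X ∈ L, ∀ Y ∈ I, X * Y - Y * X ∈ I) → (∀ X ∈ L, ∀ Y ∈ J, X * Y - Y * X ∈ J) →
      (∀ X ∈ I, ∀ Y ∈ J, X * Y = Y * X) → I = ⊥ ∨ J = ⊥)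
    (hn : ∃ X ∈ L, s * X ≠ X * s) {Y : Matrix m m Ω} (hY : Y ∈ L)
    (hY' : ∀ X ∈ L, Y * (s * X * s' - X) = (s * X * s' - X) * Y) : Y = 0 := by
  let D : Set (Matrix m m Ω) := {d | ∃ Z ∈ L, d = s * Z * s' - Z}
  have h3 : ∀ X ∈ L, ∀ Y ∈ cen L D, X * Y - Y * X ∈ cen L D := by
    intro X hX Y hY
    refine ⟨hb X hX Y hY.1, ?_⟩
    obtain ⟨X₀, h4, Z, h5, h6, rfl⟩ := decomp h h2 hc hX
    rintro _ ⟨W, hW, rfl⟩
    have h7 : s * X₀ = X₀ * s := by
      have := congrArg (· * s) h6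
      simpa only [Matrix.mul_assoc _ s' s, h2, Matrix.mul_one] using this
    have h8 : X₀ * s' = s' * X₀ := by
      have := congrArg (s' * ·) h6
      simpa only [← Matrix.mul_assoc, h2, Matrix.one_mul] using this
    have h9 := hY.2 _ ⟨Z, h5, rfl⟩
    have h10 := hY.2 _ ⟨W, hW, rfl⟩
    have h11 := hY.2 _ ⟨_, hb X₀ h4 W hW, rfl⟩
    have h12 : s * (X₀ * W - W * X₀) * s' - (X₀ * W - W * X₀) =
        X₀ * (s * W * s' - W) - (s * W * s' - W) * X₀ := by
      have e1 : s * (X₀ * W) * s' = X₀ * (s * W * s') := by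
        simp only [← Matrix.mul_assoc, h7]
      have e2 : s * (W * X₀) * s' = s * W * s' * X₀ := by
        simp only [Matrix.mul_assoc, h8]
      rw [mul_sub s, sub_mul _ _ s', e1, e2]
      noncomm_ring
    rw [h12] at h11
    generalize s * W * s' - W = d at h10 h11 ⊢
    generalize s * Z * s' - Z = d' at h9 ⊢
    have e1 : (X₀ + d') * Y - Y * (X₀ + d') = X₀ * Y - Y * X₀ := by
      rw [add_mul, mul_add, h9]
      abel
    rw [e1]
    have e2 : (X₀ * Y - Y * X₀) * d - d * (X₀ * Y - Y * X₀) =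
        X₀ * (Y * d - d * Y) - (Y * d - d * Y) * X₀ -
          (Y * (X₀ * d - d * X₀) - (X₀ * d - d * X₀) * Y) := by noncomm_ring
    rw [h10, h11, sub_self, sub_self] at e2
    simpa only [Matrix.mul_zero, Matrix.zero_mul, sub_self, sub_eq_zero] using e2
  have h4 : ∀ X ∈ L, ∀ Y ∈ cen L (cen L D), X * Y - Y * X ∈ cen L (cen L D) := by
    intro X hX Y hY
    refine ⟨hb X hX Y hY.1, fun d hd => ?_⟩
    have h10 := hY.2 d hd
    have h11 := hY.2 _ (h3 X hX d hd)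
    have e2 : (X * Y - Y * X) * d - d * (X * Y - Y * X) =
        X * (Y * d - d * Y) - (Y * d - d * Y) * X -
          (Y * (X * d - d * X) - (X * d - d * X) * Y) := by noncomm_ring
    rw [h10, h11, sub_self, sub_self] at e2
    simpa only [Matrix.mul_zero, Matrix.zero_mul, sub_self, sub_eq_zero] using e2
  rcases hP (cen L D) (cen L (cen L D)) (fun _ h => h.1) (fun _ h => h.1) h3 h4
    fun X hX Y hY => (hY.2 X hX).symm with h5 | h5
  · refine (Submodule.eq_bot_iff _).1 h5 Y ⟨hY, ?_⟩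
    rintro _ ⟨Z, hZ, rfl⟩
    exact hY' Z hZ
  · obtain ⟨X, hX, hn⟩ := hn
    have h6 := (Submodule.eq_bot_iff _).1 h5 (s * X * s' - X)
      ⟨sub_mem (hc X hX) hX, fun Z hZ => (hZ.2 _ ⟨X, hX, rfl⟩).symm⟩
    have := congrArg (· * s) (sub_eq_zero.1 h6)
    exact absurd (by simpa only [Matrix.mul_assoc _ s' s, h2, Matrix.mul_one] using this) hn

end MF

end Vale.Agent.P011Z
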