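import Vale.Agent.P011Z.SysF
import Vale.Agent.P011Z.Basic

/-!
Restriction of scalars from a number field: the rational system of tensors.
-/

open Matrix Module

namespace Vale.Agent.P011Z

namespace MF

variable {F m L : Type} [Field F] [NumberField F] [Fintype m] [DecidableEq m] [Fintype L]
  [DecidableEq L] (β : Basis L ℚ F) {Ω : Type} [Field Ω] [CharZero Ω]

/-- Restriction of scalars for matrices. -/
noncomputable def res : Matrix m m F →ₐ[ℚ] Matrix (m × L) (m × L) ℚ :=
  (Matrix.compAlgEquiv m L ℚ ℚ).toAlgHom.comp (Algebra.leftMulMatrix β).mapMatrix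

theorem res_apply (X : Matrix m m F) (i j : m × L) :
    res β X i j = β.repr (X i.1 j.1 * β j.2) i.2 :=
  Algebra.leftMulMatrix_eq_repr_mul β _ _ _

theorem res_inj : Function.Injective (res (m := m) β) := by
  refine (injective_iff_map_eq_zero _).2 fun X hX => ?_
  ext i j
  refine Algebra.leftMulMatrix_injective β ?_
  ext l l'
  have h := congrFun (congrFun hX (i, l)) (j, l')
  rw [res_apply] at h
  rw [Algebra.leftMulMatrix_eq_repr_mul, h]
  simp

/-- The component of a vector at an embedding. -/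
noncomputable def jm (τ : F →+* Ω) : (m × L → Ω) →ₗ[Ω] (m → Ω) where
  toFun v i := ∑ l, τ (β l) * v (i, l)
  map_add' v w := by
    ext i
    simp [mul_add, Finset.sum_add_distrib]
  map_smul' c v := by
    ext i
    simp [Finset.mul_sum, mul_left_comm]

omit [Fintype m] [DecidableEq m] [DecidableEq L] [CharZero Ω] in
theorem jm_apply (τ : F →+* Ω) (v : m × L → Ω) (i : m) :
    jm β τ v i = ∑ l, τ (β l) * v (i, l) := rfl

omit [DecidableEq L] in
theorem sum_repr (τ : F →+* Ω) (x : F) : ∑ l, τ (β l) * ((β.repr x l : ℚ) : Ω) = τ x := by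
  conv_rhs => rw [← β.sum_repr x, map_sum]
  refine Finset.sum_congr rfl fun l _ => ?_
  rw [Rat.smul_def, map_mul, map_ratCast, mul_comm]

theorem jm_res (τ : F →+* Ω) (X : Matrix m m F) (v : m × L → Ω) :
    jm β τ ((res β X).map (Rat.castHom Ω) *ᵥ v) = X.map τ *ᵥ jm β τ v := by
  ext i
  simp only [jm_apply, mulVec, dotProduct, map_apply, res_apply, Finset.mul_sum, Rat.coe_castHom]
  rw [Finset.sum_comm, Fintype.sum_prod_type]
  refine Finset.sum_congr rfl fun j _ => Finset.sum_congr rfl fun l _ => ?_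
  simp only [← mul_assoc, ← Finset.sum_mul, sum_repr, map_mul]

/-- The rational coordinates of a tensor. -/
noncomputable def crd (t : TnF F m) (l : L) : (Fin t.a → m × L) → ℚ :=
  fun J => β.repr (t.t (fun r => (J r).1) * ∏ r, t.σ r (β (J r).2)) l

omit [DecidableEq m] [DecidableEq L] in
theorem sum_ev (t : TnF F m) (τ : F →+* Ω) (v : Fin t.a → m × L → Ω) :
    ∑ l, τ (β l) * ev (crd β t l) Ω v = t.evE τ fun r => jm β (τ.comp (t.σ r)) (v r) := by
  simp only [ev_apply, Finset.mul_sum, TnF.evE, crd]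
  rw [Finset.sum_comm, ← (Equiv.arrowProdEquivProdArrow _ _ _).symm.sum_comp, Fintype.sum_prod_type]
  refine Finset.sum_congr rfl fun j _ => ?_
  simp only [← mul_assoc, ← Finset.sum_mul, sum_repr, jm_apply]
  rw [Fintype.prod_sum, Finset.mul_sum]
  refine Finset.sum_congr rfl fun l _ => ?_
  rw [map_mul, map_prod, mul_assoc, ← Finset.prod_mul_distrib]
  rfl

/-- The identification of the two vector spaces. -/
noncomputable def eqv : (m × L → ℚ) ≃ₗ[ℚ] (m → F) where
  toFun v i := ∑ l, v (i, l) • β l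
  map_add' v w := by
    ext i
    simp [add_smul, Finset.sum_add_distrib]
  map_smul' c v := by
    ext i
    simp [Finset.smul_sum, mul_smul]
  invFun u i := β.repr (u i.1) i.2
  left_inv v := by
    ext i
    exact congrFun (β.repr_sum_self fun l => v (i.1, l)) i.2
  right_inv u := by
    ext i
    exact β.sum_repr (u i)

omit [Fintype m] [DecidableEq m] [DecidableEq L] in
theorem jm_cast (τ : F →+* Ω) (v : m × L → ℚ) :
    jm β τ (fun i => (v i : Ω)) = fun i => τ (eqv β v i) := by
  ext i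
  change _ = τ (∑ l, v (i, l) • β l)
  rw [jm_apply, map_sum]
  refine Finset.sum_congr rfl fun l _ => ?_
  rw [Rat.smul_def, map_mul, map_ratCast, mul_comm]

theorem eqv_res (X : Matrix m m F) (v : m × L → ℚ) :
    eqv β (res β X *ᵥ v) = X *ᵥ eqv β v := by
  have h := jm_res β (RingHom.id F) X fun i => (v i : F)
  have h1 : (res β X).map (Rat.castHom F) *ᵥ (fun i => (v i : F)) =
      fun i => (((res β X *ᵥ v) i : ℚ) : F) := by
    ext i
    simp [mulVec, dotProduct]
  rw [h1, jm_cast, jm_cast] at h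
  exact h

omit [DecidableEq m] [DecidableEq L] in
theorem ev_crd (t : TnF F m) (l : L) (v : Fin t.a → m × L → ℚ) :
    ev (crd β t l) ℚ v = β.repr (t.ev fun r => eqv β (v r)) l := by
  have h := sum_ev β t (RingHom.id F) fun r i => (v r i : F)
  have h1 : ∀ l, ev (crd β t l) F (fun r i => (v r i : F)) = ((ev (crd β t l) ℚ v : ℚ) : F) := by
    intro l
    simp [ev_apply]
  simp only [h1, jm_cast] at h
  have h2 : (t.ev fun r => eqv β (v r)) = ∑ l, ev (crd β t l) ℚ v • β l := by
    refine Eq.trans ?_ (h.symm.trans ?_)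
    · rfl
    · exact Finset.sum_congr rfl fun l _ => by rw [Rat.smul_def, mul_comm]; rfl
  rw [h2]
  exact (congrFun (β.repr_sum_self fun l => ev (crd β t l) ℚ v) l).symm

omit [Fintype m] [DecidableEq m] in
theorem hom_surj (σ : F →+* F) : Function.Surjective σ :=
  (Algebra.IsAlgebraic.algHom_bijective σ.toRatAlgHom).2

variable (S : SysF F m)

/-- The sesquilinear form of the system. -/
def sq (u v : m → F) : F := ∑ i, ∑ j, S.B i j * (S.σ 0 (u i) * S.σ 1 (v j))

omit [NumberField F] in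
theorem ev_sq (x : Fin 2 → m → F) :
    (⟨2, S.σ, fun j => S.B (j 0) (j 1)⟩ : TnF F m).ev x = sq S (x 0) (x 1) := by
  unfold TnF.ev sq
  rw [← (piFinTwoEquiv fun _ => m).symm.sum_comp, Fintype.sum_prod_type]
  simp [piFinTwoEquiv]

omit [NumberField F] in
theorem sq_smul (c : F) (u v : m → F) : sq S (c • u) v = S.σ 0 c * sq S u v := by
  simp only [sq, Finset.mul_sum, Pi.smul_apply, smul_eq_mul, map_mul]
  exact Finset.sum_congr rfl fun i _ => Finset.sum_congr rfl fun j _ => by ring

omit [NumberField F] in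
theorem sq_sub (u u' v : m → F) : sq S (u - u') v = sq S u v - sq S u' v := by
  simp only [sq, ← Finset.sum_sub_distrib, Pi.sub_apply, map_sub]
  exact Finset.sum_congr rfl fun i _ => Finset.sum_congr rfl fun j _ => by ring

omit [NumberField F] in
theorem sq_left {u : m → F} (h : ∀ v, sq S u v = 0) : u = 0 := by
  have h1 : (fun i => S.σ 0 (u i)) ᵥ* S.B = 0 := by
    ext j
    have h2 := h (Pi.single j 1)
    simp only [sq] at h2
    rw [Finset.sum_comm, Finset.sum_eq_single j] at h2
    · simpa [vecMul, dotProduct, mul_comm] using h2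
    · intro k _ hk
      simp [hk]
    · simp
  ext i
  exact (map_eq_zero _).1 (congrFun (eq_zero_of_vecMul_eq_zero S.detB h1) i)

omit [NumberField F] in
theorem sq_right {v : m → F} (h : ∀ u, sq S u v = 0) : v = 0 := by
  have h1 : S.B *ᵥ (fun i => S.σ 1 (v i)) = 0 := by
    ext j
    have h2 := h (Pi.single j 1)
    simp only [sq] at h2
    rw [Finset.sum_eq_single j] at h2
    · simpa [mulVec, dotProduct] using h2
    · intro k _ hk
      simp [hk]
    · simp
  ext i
  exact (map_eq_zero _).1 (congrFun (eq_zero_of_mulVec_eq_zero S.detB h1) i)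

/-- A coordinate of the sesquilinear form. -/
noncomputable def bq (l : L) : Matrix (m × L) (m × L) ℚ :=
  fun i j => β.repr (S.B i.1 j.1 * (S.σ 0 (β i.2) * S.σ 1 (β j.2))) l

omit [Fintype L] [DecidableEq L] in
theorem crd_bq (l : L) : crd β (⟨2, S.σ, fun j => S.B (j 0) (j 1)⟩ : TnF F m) l =
    fun j : Fin 2 → m × L => bq β S l (j 0) (j 1) := by
  ext j
  simp [crd, bq]

theorem det_bq (l : L) : (bq β S l).det ≠ 0 := by
  intro h
  obtain ⟨y, h0, h1⟩ := exists_mulVec_eq_zero_iff.2 h
  refine h0 ((eqv β).map_eq_zero_iff.1 (sq_right S fun u => ?_))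
  by_contra h2
  obtain ⟨c, hc⟩ := hom_surj (S.σ 0) (β l / sq S u (eqv β y))
  have h3 := ev_crd β (⟨2, S.σ, fun j => S.B (j 0) (j 1)⟩ : TnF F m) l ![(eqv β).symm (c • u), y]
  rw [ev_sq, crd_bq, ev_apply, ← (piFinTwoEquiv fun _ => m × L).symm.sum_comp,
    Fintype.sum_prod_type] at h3
  simp only [cons_val_zero, cons_val_one, LinearEquiv.apply_symm_apply, sq_smul, hc,
    div_mul_cancel₀ _ h2, Basis.repr_self, Finsupp.single_eq_same] at h3
  refine one_ne_zero (h3.symm.trans (Finset.sum_eq_zero fun i _ => ?_))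
  have h4 := congrArg ((eqv β).symm (c • u) i * ·) (congrFun h1 i)
  simp only [mulVec, dotProduct, Finset.mul_sum, Pi.zero_apply, mul_zero] at h4
  rw [← h4]
  refine Finset.sum_congr rfl fun j _ => ?_
  simp [piFinTwoEquiv]
  ring

/-- The rational system of tensors. -/
noncomputable def sys : Sys (m × L) where
  T := {τ | ∃ t ∈ S.T, ∃ l, τ = ⟨t.a, crd β t l⟩}
  fin := by
    refine (S.fin.biUnion fun t _ =>
      Set.finite_range fun l => (⟨t.a, crd β t l⟩ : Tn (m × L))).subset ?_
    rintro _ ⟨t, ht, l, rfl⟩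
    exact Set.mem_biUnion ht ⟨l, rfl⟩
  B := bq β S (Classical.choice β.index_nonempty)
  detB := det_bq β S _
  memB := ⟨_, S.memB, _, by rw [crd_bq]⟩

theorem forall_T {P : Tn (m × L) → Prop} :
    (∀ τ ∈ (sys β S).T, P τ) ↔ ∀ t ∈ S.T, ∀ l, P ⟨t.a, crd β t l⟩ :=
  ⟨fun h t ht l => h _ ⟨t, ht, l, rfl⟩, by
    rintro h _ ⟨t, ht, l, rfl⟩
    exact h t ht l⟩

theorem mem_mon_rat {g : Matrix (m × L) (m × L) ℚ} : g ∈ (sys β S).mon ℚ ↔
    ∀ t ∈ S.T, ∀ x : Fin t.a → m × L → ℚ,
      t.ev (fun r => eqv β (g *ᵥ x r)) = t.ev fun r => eqv β (x r) := by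
  rw [Sys.mem_mon, forall_T]
  simp only [ev_crd]
  exact forall₂_congr fun t _ => ⟨fun h x => β.repr.injective (Finsupp.ext fun l => h l x),
    fun h l x => by rw [h x]⟩

theorem mem_lie_rat {X : Matrix (m × L) (m × L) ℚ} : X ∈ (sys β S).lie ℚ ↔
    ∀ t ∈ S.T, ∀ x : Fin t.a → m × L → ℚ,
      ∑ r, t.ev (Function.update (fun r => eqv β (x r)) r (eqv β (X *ᵥ x r))) = 0 := by
  rw [Sys.mem_lie, forall_T]
  have h1 : ∀ (t : TnF F m) (x : Fin t.a → m × L → ℚ) (r : Fin t.a) (y : m × L → ℚ),
      (fun q => eqv β (Function.update x r y q)) =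
        Function.update (fun r => eqv β (x r)) r (eqv β y) := fun t x r y =>
    funext fun q => Function.apply_update (fun _ => eqv β) x r y q
  simp only [ev_crd, h1, ← Finsupp.finsetSum_apply, ← map_sum]
  exact forall₂_congr fun t _ => ⟨fun h x => β.repr.map_eq_zero_iff.1 (Finsupp.ext fun l => h l x),
    fun h l x => by rw [h x]; simp⟩

theorem res_mem_mon {g : Matrix m m F} : res β g ∈ (sys β S).mon ℚ ↔ g ∈ S.mon := by
  rw [mem_mon_rat]
  simp only [eqv_res]
  refine forall₂_congr fun t _ => ⟨fun h x => ?_, fun h x => h _⟩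
  simpa using h fun r => (eqv β).symm (x r)

theorem res_mem_lie {X : Matrix m m F} : res β X ∈ (sys β S).lie ℚ ↔ X ∈ S.lie := by
  rw [mem_lie_rat]
  simp only [eqv_res]
  refine forall₂_congr fun t _ => ⟨fun h x => ?_, fun h x => h _⟩
  simpa using h fun r => (eqv β).symm (x r)

theorem exists_res {g : Matrix (m × L) (m × L) ℚ}
    (h : ∀ (c : F) (u : m → F),
      eqv β (g *ᵥ (eqv β).symm (c • u)) = c • eqv β (g *ᵥ (eqv β).symm u)) :
    ∃ X, res β X = g := by
  let f : (m → F) →ₗ[F] (m → F) :=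
    { toFun := fun u => eqv β (g *ᵥ (eqv β).symm u)
      map_add' := fun u v => by rw [map_add, mulVec_add, map_add]
      map_smul' := h }
  refine ⟨LinearMap.toMatrix' f, Matrix.ext_of_mulVec_single fun i => (eqv β).injective ?_⟩
  rw [eqv_res, LinearMap.toMatrix'_mulVec]
  exact congrArg (fun v => eqv β (g *ᵥ v)) ((eqv β).symm_apply_apply _)

theorem exists_res_mon {g : Matrix (m × L) (m × L) ℚ} (hg : g ∈ (sys β S).mon ℚ) :
    ∃ X ∈ S.mon, res β X = g := by
  have h1 : ∀ u v, sq S (eqv β (g *ᵥ (eqv β).symm u)) (eqv β (g *ᵥ v)) = sq S u (eqv β v) := by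
    intro u v
    simpa [ev_sq] using (mem_mon_rat β S).1 hg _ S.memB ![(eqv β).symm u, v]
  obtain ⟨X, rfl⟩ := exists_res β (g := g) fun c u => sub_eq_zero.1 (sq_left S fun v => by
    have h2 : v = eqv β (g *ᵥ (g⁻¹ *ᵥ (eqv β).symm v)) := by
      rw [mulVec_mulVec, mul_nonsing_inv _ (Sys.isUnit_det hg), one_mulVec,
        LinearEquiv.apply_symm_apply]
    rw [h2, sq_sub, sq_smul, h1, h1, sq_smul, sub_self])
  exact ⟨X, (res_mem_mon β S).1 hg, rfl⟩

theorem exists_res_lie {g : Matrix (m × L) (m × L) ℚ} (hg : g ∈ (sys β S).lie ℚ) :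
    ∃ X ∈ S.lie, res β X = g := by
  have h1 : ∀ u v, sq S (eqv β (g *ᵥ (eqv β).symm u)) v =
      -sq S u (eqv β (g *ᵥ (eqv β).symm v)) := by
    intro u v
    refine eq_neg_of_add_eq_zero_left ?_
    simpa [ev_sq] using (mem_lie_rat β S).1 hg _ S.memB ![(eqv β).symm u, (eqv β).symm v]
  obtain ⟨X, rfl⟩ := exists_res β (g := g) fun c u => sub_eq_zero.1 (sq_left S fun v => by
    rw [sq_sub, sq_smul, h1, h1, sq_smul, mul_neg, sub_self])
  exact ⟨X, (res_mem_lie β S).1 hg, rfl⟩

include β in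
theorem bracket {X Y : Matrix m m F} (hX : X ∈ S.lie) (hY : Y ∈ S.lie) :
    X * Y - Y * X ∈ S.lie := by
  rw [← res_mem_lie β] at hX hY ⊢
  rw [map_sub, map_mul, map_mul]
  exact Sys.bracket_mem hX hY

theorem zero_of_span {K V : Type} [Field K] [AddCommGroup V] [Module K V] {a : ℕ}
    (f : MultilinearMap K (fun _ : Fin a => V) K) (s : Fin a → Set V)
    (h : ∀ x : Fin a → V, (∀ r, x r ∈ s r) → f x = 0) (x : Fin a → V)
    (hx : ∀ r, x r ∈ Submodule.span K (s r)) : f x = 0 := by
  classical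
  choose c A h1 _ h3 using fun r => (Submodule.mem_span_iff_exists_finset_subset).1 (hx r)
  rw [show x = fun r => ∑ i ∈ A r, c r i • i from funext fun r => (h3 r).symm,
    MultilinearMap.map_sum_finset]
  refine Finset.sum_eq_zero fun i hi => ?_
  rw [MultilinearMap.map_smul_univ, h i fun r => h1 r (Fintype.mem_piFinset.1 hi r), smul_zero]

/-- The multilinear form attached to a tensor and to an embedding. -/
noncomputable def ml (t : TnF F m) (τ : F →+* Ω) : MultilinearMap Ω (fun _ : Fin t.a => m → Ω) Ω :=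
  ∑ j : Fin t.a → m, τ (t.t j) •
    (MultilinearMap.mkPiAlgebra Ω (Fin t.a) Ω).compLinearMap fun r => LinearMap.proj (j r)

omit [NumberField F] [DecidableEq m] [CharZero Ω] in
theorem ml_apply (t : TnF F m) (τ : F →+* Ω) (x : Fin t.a → m → Ω) : ml t τ x = t.evE τ x := by
  simp [ml, TnF.evE]

theorem stable (hS : S.Stable) : (sys β S).Stable := by
  intro W h0 hW
  obtain ⟨t, ht, ha, x, hx, h1⟩ := hS (Submodule.span F (eqv β '' W))
    (fun h => h0 ((Submodule.eq_bot_iff _).2 fun w hw => (eqv β).map_eq_zero_iff.1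
      ((Submodule.eq_bot_iff _).1 h _ (Submodule.subset_span ⟨w, hw, rfl⟩))))
    (fun X hX w hw => by
      induction hw using Submodule.span_induction with
      | mem w hw =>
        obtain ⟨w, hw, rfl⟩ := hw
        exact Submodule.subset_span ⟨_, hW _ ((res_mem_lie β S).2 hX) w hw, eqv_res β X w⟩
      | zero => simp
      | add u v _ _ h2 h3 =>
        rw [mulVec_add]
        exact add_mem h2 h3
      | smul c u _ h2 =>
        rw [mulVec_smul]
        exact Submodule.smul_mem _ c h2)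
  by_contra h2
  refine h1 ?_
  have h3 : ∀ y : Fin t.a → m → F, t.ev y = ml t (RingHom.id F) fun r i => t.σ r (y r i) :=
    fun y => (ml_apply t (RingHom.id F) fun r i => t.σ r (y r i)).symm
  rw [h3]
  refine zero_of_span _ (fun r => (fun u i => t.σ r (u i)) '' (eqv β '' W)) (fun y hy => ?_) _
    fun r => ?_
  · choose u hu h4 using hy
    choose w hw h5 using hu
    rw [← funext h4, ← funext h5, ← h3]
    refine β.repr.map_eq_zero_iff.1 (Finsupp.ext fun l => ?_)
    rw [← ev_crd]
    by_contra h6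
    exact h2 ⟨⟨t.a, crd β t l⟩, ⟨t, ht, l, rfl⟩, ha, w, hw, h6⟩
  · have h4 := hx r
    generalize x r = u at h4
    induction h4 using Submodule.span_induction with
    | mem w hw => exact Submodule.subset_span ⟨w, hw, rfl⟩
    | zero =>
      simp only [Pi.zero_apply, map_zero]
      exact zero_mem _
    | add u v _ _ h2 h3 =>
      simp only [Pi.add_apply, map_add]
      exact add_mem h2 h3
    | smul c u _ h2 =>
      simp only [Pi.smul_apply, smul_eq_mul, map_mul]
      exact Submodule.smul_mem _ (t.σ r c) h2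

omit [NumberField F] [DecidableEq m] [CharZero Ω] in
theorem span_br (τ : F →+* Ω) {A B : Set (Matrix m m F)} {P : Submodule Ω (Matrix m m Ω)}
    (h : ∀ X ∈ A, ∀ Y ∈ B, (X * Y - Y * X).map τ ∈ P) {X Y : Matrix m m Ω}
    (hX : X ∈ Submodule.span Ω ((fun X : Matrix m m F => X.map τ) '' A))
    (hY : Y ∈ Submodule.span Ω ((fun X : Matrix m m F => X.map τ) '' B)) : X * Y - Y * X ∈ P := by
  induction hX using Submodule.span_induction with
  | mem X hX =>
    obtain ⟨X, hX, rfl⟩ := hX
    induction hY using Submodule.span_induction with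
    | mem Y hY =>
      obtain ⟨Y, hY, rfl⟩ := hY
      have h1 := h X hX Y hY
      rwa [Matrix.map_sub _ (map_sub τ), Matrix.map_mul, Matrix.map_mul] at h1
    | zero => simp
    | add Y Z _ _ h2 h3 =>
      rw [mul_add, add_mul, add_sub_add_comm]
      exact add_mem h2 h3
    | smul c Y _ h2 =>
      rw [mul_smul_comm, smul_mul_assoc, ← smul_sub]
      exact Submodule.smul_mem _ c h2
  | zero => simp
  | add X Z _ _ h2 h3 =>
    rw [mul_add, add_mul, add_sub_add_comm]
    exact add_mem h2 h3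
  | smul c X _ h2 =>
    rw [mul_smul_comm, smul_mul_assoc, ← smul_sub]
    exact Submodule.smul_mem _ c h2

omit [CharZero Ω] in
theorem prime (τ : F →+* Ω) (hP : S.Prime τ) : (sys β S).Prime := by
  intro I J hI hJ h
  let E : Submodule ℚ (Matrix (m × L) (m × L) ℚ) → Submodule Ω (Matrix m m Ω) := fun I =>
    Submodule.span Ω ((fun X : Matrix m m F => X.map τ) '' {X | res β X ∈ I})
  have h1 : ∀ I, (sys β S).IsIdeal ℚ I → E I ≤ S.lieE τ := fun I hI =>
    Submodule.span_mono (Set.image_mono fun X hX => (res_mem_lie β S).1 (hI.1 hX))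
  have h2 : ∀ I, (sys β S).IsIdeal ℚ I → ∀ X ∈ S.lieE τ, ∀ Y ∈ E I, X * Y - Y * X ∈ E I :=
    fun I hI X hX Y hY => span_br τ (P := E I) (fun X hX Y hY => by
      refine Submodule.subset_span ⟨X * Y - Y * X, ?_, rfl⟩
      change res β _ ∈ I
      rw [map_sub, map_mul, map_mul]
      exact hI.2 _ ((res_mem_lie β S).2 hX) _ hY) hX hY
  have h3 : ∀ I, (sys β S).IsIdeal ℚ I → E I = ⊥ → I = ⊥ := fun I hI h =>
    (Submodule.eq_bot_iff _).2 fun X hX => by
      obtain ⟨X, -, rfl⟩ := exists_res_lie β S (hI.1 hX)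
      have h6 : X.map τ ∈ E I := Submodule.subset_span ⟨X, hX, rfl⟩
      have h4 : X.map τ = 0 := (Submodule.eq_bot_iff _).1 h _ h6
      have h5 : X = 0 := Matrix.ext fun i j => (map_eq_zero τ).1 (congrFun (congrFun h4 i) j)
      rw [h5, map_zero]
  refine (hP _ _ (h1 I hI) (h1 J hJ) (h2 I hI) (h2 J hJ) fun X hX Y hY => sub_eq_zero.1
    ((Submodule.mem_bot Ω).1 (span_br τ (fun X hX Y hY => ?_) hX hY))).imp (h3 I hI) (h3 J hJ)
  have h4 : X * Y = Y * X := res_inj β (by rw [map_mul, map_mul, h _ hX _ hY])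
  rw [h4, sub_self]
  simp

end MF

end Vale.Agent.P011Z
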